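import Crest.Agent.X212.Ixm76.Rw
import Crest.Agent.X212.Num57.Rz
import Crest.Agent.X212.Glc56.Cyl
import Crest.Agent.X212.Nd18.Aps

/-! # Row 212, IX-MON (helper76): the index is locally monotone in the weight -/

set_option autoImplicit false
set_option linter.unusedSectionVars false
noncomputable section
open scoped Manifold ContDiff Topology InnerProductSpace
open MeasureTheory Set Function Filter

namespace Crest.Agent.X212.Ixm76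
open An An.Pre Sob92 Prm93 Mod61 Map77 Nk89 Nd18

section gen
variable {E : Type} [NormedAddCommGroup E] [NormedSpace ℝ E] [FiniteDimensional ℝ E]
  [MeasurableSpace E] [BorelSpace E]
  {HM : Type} [TopologicalSpace HM] {I : ModelWithCorners ℝ E HM} [I.Boundaryless]
  {M : Type} [TopologicalSpace M] [ChartedSpace HM M] [IsManifold I ∞ M]
  [MeasurableSpace M] [T2Space M] [BorelSpace M] [SecondCountableTopology M]
  {κ : Type} [Fintype κ] {lam : Type} [Fintype lam]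
  {T : Type} [NormedAddCommGroup T] [NormedSpace ℝ T] {𝔉 : Mod61.Fam I M (Option κ) lam T}
  {δ a b : ℝ} (X : Ends 𝔉 δ)

/-- the frame with the rescaled weight -/
def Fw (a : ℝ) : Fr I M (Option κ) :=
  wt 𝔉.G0.F (fun x => a / δ * X.ψ x) (contMDiff_const.mul X.wt.sm)

theorem Fw_e (a : ℝ) : (Fw X a).e = 𝔉.F0.e := X.ok.e0

theorem D_sc (s : ℝ) (c : Option κ) :
    𝔉.G0.F.D c (fun x => s * X.ψ x) = fun x => s • 𝔉.G0.F.D c X.ψ x :=
  𝔉.G0.F.toPre.D_smul X.wt.sm s c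

theorem Fw_e' (a b : ℝ) : (Fw X a).e = (Fw X b).e := (Fw_e X a).trans (Fw_e X b).symm

theorem wm_mono {μ : Measure M} {ψ χ : M → ℝ} (h : ∀ x, ψ x ≤ χ x) : wm μ ψ ≤ wm μ χ :=
  withDensity_mono (.of_forall fun x =>
    ENNReal.ofReal_le_ofReal (Real.exp_le_exp.2 (by linarith [h x])))

theorem dom_Fw (h : a ≤ b) : Dom (Fw X b).toPre (Fw X a).toPre :=
  ⟨⟨_, mix_e (Fw_e' X a b), fun _ _ => Cb_const _⟩, 1, (wm_mono fun x => mul_le_mul_of_nonneg_right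
    (div_le_div_of_nonneg_right h X.δ0.le) (X.ψ0 x)).trans_eq (one_smul _ _).symm⟩

theorem rem_e (G : Fr I M (Option κ)) (F : Pre I M (Option κ)) : (rem G F).e = G.e := rfl

theorem ad_Fw {t : T} (ht : t ∈ 𝔉.Q) (a : ℝ) :
    Ad (rw 𝔉 (Fw X a)) t fun b => rem (𝔉.G t).F (Fw X b).toPre := by
  have c : ∀ i j, 𝔉.G0.F.Cb fun x => 𝔉.S t x i j := fun i j =>
    cb_e X.ok.e0 ((X.ok.sS i j).cb t ht)
  have p : SB 𝔉.G0.F.toPre univ fun (b : ℝ) (_ : M) => 2 * (b / δ) := SB.par (by fun_prop)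
  refine ⟨fun _ => rem_e _ _, fun i => sb_e (F' := (Fw X a).toPre)
    ((Fw_e X a).trans X.ok.e0.symm) ((SB.sum fun j =>
    (SB.fixed (Cb_D (c i j) j)).add ((SB.fixed (c i j)).mul ((SB.fixed
      ⟨_, X.tame.choose_spec.dv j⟩).add (p.mul (SB.fixed (X.dψ j)))))).congr fun b _ => ?_)⟩
  rw [rem_dv (F := Fw X b) (A := fun i j x => 𝔉.S t x i j)
    (fun i x => Fw_e X b ▸ X.ok.mix t ht i x) fun i j => Cb.sm (c i j)]
  refine funext fun x => Finset.sum_congr rfl fun j _ => ?_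
  have w : Wt 𝔉.G0.F (Fw X b) _ := wt_wt _ _
  rw [w.dv, w.toWtP.D, D_sc, mul_assoc]
  rfl

variable (hG : ∀ t ∈ 𝔉.Q, 𝔉.G t = 𝔉.G0)
include hG

theorem ok_Fw (ha : 0 ≤ a) : (rw 𝔉 (Fw X a)).OK :=
  ok_wtF (𝔉 := rw 𝔉 𝔉.G0.F) (ok_rw X.ok X.ok.e0 X.ok.G0.P X.tame fun t ht => by rw [hG t ht]) _
    (fun x => mul_nonneg (div_nonneg ha X.δ0.le) (X.ψ0 x)) fun c =>
      D_sc X _ c ▸ Cb_smul (Cb_const _) (X.dψ c)

/-- the index is locally monotone on one reference -/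
theorem mono_Fw (o : Ref 𝔉) {t : T} (ht : t ∈ 𝔉.Q) {r n m k : ℕ} (hk : 4 ≤ k)
    {e : T → PtX M (Option κ) lam r n m} (ha : 0 ≤ a) {d : ℤ}
    (H : Idx k e (pt0 (rwR o (Fw_e X a)) r ht) d) : ∀ᶠ b in 𝓝 a, 0 ≤ b → ∀ d',
      Idx k e (pt0 (rwR o (Fw_e X b)) r ht) d' → (a ≤ b → d' ≤ d) ∧ (b ≤ a → d ≤ d') := by
  obtain ⟨f, hf, H⟩ := H
  have h := ok_Fw X hG ha
  filter_upwards [(Ad.cont h (pt0 (rwR o (Fw_e X a)) r ht) (ad_Fw X ht a) f).continuousAt.eventually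
    (Fred93.Fr.eventually H)] with b H1 hb d' ⟨f', hf', H2⟩
  have h' := ok_Fw X hG hb
  exact ⟨fun l => lop_le (F' := Fw X b) (he := Fw_e' X b a) h h' (dom_Fw X l) hk hf hf'
      (pt0 _ r ht) (ad_Fw X ht a) b H1 H2,
    fun l => lop_le (F' := Fw X a) (he := Fw_e' X a b) h' h (dom_Fw X l) hk hf' hf
      (pt0 _ r ht) (ad_Fw X ht b) b H2 H1⟩

omit hG in
/-- the same end -/
@[reducible] def rwE (F : Fr I M (Option κ)) (P : End 𝔉) : End (rw 𝔉 F) := ⟨P.Y, P.D, P.K, P.out⟩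

omit hG in
theorem tau_rw {F : Fr I M (Option κ)} (he : F.e = 𝔉.F0.e) (P : End 𝔉) (o : Ref 𝔉) (R : ℝ) (t : T)
    (σ : PtX (P.Y.M × ℝ) (Option κ) lam 0 0 0) :
    Rz57.tau (rwE F P) (rwR o he) R t σ = Rz57.tau P o R t σ := rfl

omit hG in
theorem eR_rw {F : Fr I M (Option κ)} (he : F.e = 𝔉.F0.e) {A : Type} [Fintype A] (P : A → End 𝔉)
    (o : Ref 𝔉) (R : ℝ) (t : T) (e : ∀ a, PtX ((P a).Y.M × ℝ) (Option κ) lam 0 0 0) :
    Rz57.eR (fun a => rwE F (P a)) (rwR o he) R t e = Rz57.eR P o R t e :=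
  congrArg₂ (· + ·) rfl (funext fun _ => Finset.sum_congr rfl fun a _ => tau_rw he (P a) o R t _)

/-- the ends with the rescaled weight -/
@[reducible] def scX (h0 : 0 < a) (h1 : a ≤ δ) : Ends (rw 𝔉 (Fw X a)) a where
  A := X.A
  P i := rwE _ (X.P i)
  ψ x := a / δ * X.ψ x
  R := X.R
  ok := ok_Fw X hG h0.le
  tame := X.tame
  wt := wt_wt _ _
  ψ0 x := mul_nonneg (div_nonneg h0.le X.δ0.le) (X.ψ0 x)
  dψ c := D_sc X _ c ▸ Cb_smul (Cb_const _) (X.dψ c)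
  sml x := by
    refine le_trans (Finset.sum_le_sum fun c _ => ?_) (X.sml x)
    rw [congrFun (D_sc X _ c) x, smul_eq_mul, mul_pow]
    exact mul_le_of_le_one_left (sq_nonneg _)
      (pow_le_one₀ (div_nonneg h0.le X.δ0.le) (div_le_one_of_le₀ h1 X.δ0.le))
  δ0 := h0
  R0 := X.R0
  okP i := have k := X.okP i
    ⟨k.D, k.con, k.inf, k.S, k.cf, k.a, k.μ, fun x hx => by
      rw [k.wt x hx, ← mul_assoc, div_mul_cancel₀ _ X.δ0.ne']; rfl⟩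
  dis := X.dis
  cov := X.cov

end gen

open M Rz57
variable {κ lam : Type} [Fintype κ] [Fintype lam] {Z : Mf 4} {k : ℕ} {δ a : ℝ} {b : BG κ lam Z}
  {O : Set Z.M} (g : b.GR O δ) (hG : ∀ t ∈ g.𝔉.Q, g.𝔉.G t = g.𝔉.G0)

/-- the family with the rescaled weight -/
@[reducible] def sc (h0 : 0 < a) (h1 : a ≤ δ) : b.GR O a where
  T := g.T
  𝔉 := rw g.𝔉 (Fw g.X a)
  X := scX g.X hG h0 h1
  t := g.t
  ht := g.ht
  f := g.f
  K := g.K
  hB := g.hB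
  hG := g.hG
  hO := g.hO
  hO' := g.hO'
  hP i := congrArg (rwE _) (g.hP i)
  hψ := g.hψ

theorem ix_eq (hq : GeqStmt κ lam k) (hb : b.OK O) {c : C0 Z κ lam} (hc : c.Adm b.B b.G) {d d' : ℤ}
    (h : b.Ix O c k δ d) (h' : b.Ix O c k δ d') : d = d' :=
  let ⟨_, e⟩ := hb.en
  hq Z Z b b (Glc56.gpId hb hb.cl.2 subset_rfl) (.refl _) O O c c c.m.p 1 δ d d' hb hb
    ⟨rfl, rfl, fun i => Glc56.gpId_mt hb _ _ (e i).1 (e i).2.1⟩ (fun _ _ => Iff.rfl) hc hc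
    (Eqv71.ceq_refl hb.B hb.G ⟨hc.ok, hc.conn, hc.sm, hc.pos⟩ hb.cl.2) h h'

variable (κ lam) in
/-- **IX-MON** -/
theorem mon (hk : 7 ≤ k) (hq : GeqStmt κ lam k) : MonStmt κ lam k :=
  fun _ b O c β δ₀ hb hc h1 hz δ hδ => by
  obtain ⟨g, _, hG0⟩ := hb.gr _ (hδ.1.trans (hδ.2.trans_le h1)) le_rfl
  have hG : ∀ t ∈ g.𝔉.Q, g.𝔉.G t = g.𝔉.G0 := fun t _ => by
    rw [Subsingleton.elim t g.t, g.hG, hG0]
  choose f s hf _ using hz δ hδ
  obtain ⟨o, R, l, e, q⟩ := lit_of g hb hc fun i => ⟨s i, hf i⟩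
  have key : ∀ a ∈ Ioo 0 δ₀, ∃ d₁, Idx k (eR (En g) o R g.t fun i => eZ (b.E i).X.N (b.E i).X.D)
      (pt0 (rwR o (Fw_e g.X a)) 0 g.ht) d₁ ∧ ∀ d, b.Ix O c k a d → d = d₁ := fun a ha => by
    let g' := sc g hG ha.1 (ha.2.le.trans h1)
    have l' : g'.X.Lit (rwR o (Fw_e g.X a)) R := ⟨l.le, fun i => ⟨(l.lit i).eq, (l.lit i).tmp⟩⟩
    have ch := ch_of g' l' (by omega : 3 ≤ k) fun i h h0 => by
      obtain ⟨f', s', hf', hz'⟩ := hz a ha i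
      have e1 := (O'_eq g l.le hf').symm.trans (O'_eq g l.le (hf i))
      have := (hb.X i).con
      obtain rfl : f' = f i := by
        revert e1; cases f' <;> cases f i <;> simp [spO, eq_comm (a := (∅ : Set _))]
      exact hz' _ h _ h0 (O'_eq g' l'.le hf') (q i)
    obtain ⟨d, hd⟩ := (g'.X.fred _ R 0 0 0 k _ hk l' ch.aff (pt0 _ 0 g'.ht) (fred_of ch)).1
    exact ⟨d, eR_rw (Fw_e g.X a) (En g) o R g.t _ ▸ hd,
      fun d' h => ix_eq hq hb hc.1 h ⟨g', _, R, 0, 0, 0, _, ch, e, hd⟩⟩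
  obtain ⟨d₀, H, u⟩ := key δ hδ
  filter_upwards [mono_Fw g.X hG o g.ht (by omega) hδ.1.le H, Ioo_mem_nhds hδ.1 hδ.2]
    with a H1 ha d d' hd hd'
  obtain ⟨d₁, H', u'⟩ := key a ha
  rw [u d hd, u' d' hd']
  exact H1 ha.1.le d₁ H'

end Crest.Agent.X212.Ixm76
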