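import Crest.Agent.X212.Fred93.Basic

/-! # Row 212, IX-MON (helper76): comparison of two Fredholm indices -/

set_option autoImplicit false
noncomputable section
open Set Function Module

namespace Crest.Agent.X212.Ixm76
open Fred93

/-- the kernel injects, the cokernel surjects -/
theorem fr_le {X X' Y Y' : Type*} [NormedAddCommGroup X] [NormedSpace ℝ X] [NormedAddCommGroup X']
    [NormedSpace ℝ X'] [NormedAddCommGroup Y] [NormedSpace ℝ Y] [NormedAddCommGroup Y']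
    [NormedSpace ℝ Y'] {L : X →L[ℝ] Y} {L' : X' →L[ℝ] Y'} {i : X' →L[ℝ] X} {j : Y' →L[ℝ] Y}
    (hi : Injective i) (hj : DenseRange j) (e : ∀ x, L (i x) = j (L' x)) {n n' : ℤ} (h : Fr L n)
    (h' : Fr L' n') : n' ≤ n := by
  have := h.1.finite_ker
  have : FiniteDimensional ℝ (Y ⧸ L.range) := h.1.finite_coker
  have : FiniteDimensional ℝ (Y' ⧸ L'.range) := h'.1.finite_coker
  have h1 : finrank ℝ L'.ker ≤ finrank ℝ L.ker :=
    LinearMap.finrank_le_finrank_of_injective (f := (i : X' →ₗ[ℝ] X).restrict (p := L'.ker)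
      (q := L.ker) fun x hx => (e x).trans ((congrArg j hx).trans (map_zero j)))
      fun x y hxy => Subtype.ext (hi (congrArg Subtype.val hxy))
  have h2 : L.range ⊔ j.range = ⊤ := by
    have c := Submodule.isClosed_mono_of_finiteDimensional_quotient h.1.isClosed_range
      (le_sup_left : L.range ≤ L.range ⊔ j.range)
    refine eq_top_iff.2 fun y _ => c.closure_subset (closure_mono ?_ (hj y))
    exact fun z hz => Submodule.mem_sup_right hz
  have h3 : finrank ℝ (Y ⧸ L.range) ≤ finrank ℝ (Y' ⧸ L'.range) := by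
    refine LinearMap.finrank_le_finrank_of_surjective (f := L'.range.mapQ L.range (j : Y' →ₗ[ℝ] Y)
      (by rintro _ ⟨x, rfl⟩; exact ⟨i x, e x⟩)) fun y => ?_
    obtain ⟨y, rfl⟩ := Submodule.Quotient.mk_surjective _ y
    obtain ⟨a, ha, _, ⟨b, rfl⟩, rfl⟩ := Submodule.mem_sup.1 (h2.ge (Submodule.mem_top (x := y)))
    exact ⟨Submodule.Quotient.mk b, (Submodule.Quotient.eq _).2 (by simpa using ha)⟩
  rw [← h.2, ← h'.2, ind, ind, LinearMap.index_eq_finrank_sub, LinearMap.index_eq_finrank_sub]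
  omega

variable {X X' Y Y' Z : Type} [NormedAddCommGroup X] [NormedSpace ℝ X] [NormedAddCommGroup X']
  [NormedSpace ℝ X'] [NormedAddCommGroup Y] [NormedSpace ℝ Y] [NormedAddCommGroup Y']
  [NormedSpace ℝ Y'] [NormedAddCommGroup Z] [NormedSpace ℝ Z]

theorem fd_comm {f : X → Y} {f' : X' → Y'} {i : X' →L[ℝ] X} {j : Y' →L[ℝ] Y} {x' : X'} {x : X}
    (hx : i x' = x) (h1 : DifferentiableAt ℝ f x) (h2 : DifferentiableAt ℝ f' x')
    (e : f ∘ i =ᶠ[nhds x'] j ∘ f') (v : X') : fderiv ℝ f x (i v) = j (fderiv ℝ f' x' v) := by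
  subst hx
  exact DFunLike.congr_fun ((h1.hasFDerivAt.comp _ i.hasFDerivAt).unique
    ((j.hasFDerivAt.comp _ h2.hasFDerivAt).congr_of_eventuallyEq e)) v

theorem fr_le' {U U' V V' W W' : Type} [NormedAddCommGroup U] [NormedSpace ℝ U]
    [NormedAddCommGroup U'] [NormedSpace ℝ U'] [NormedAddCommGroup V] [NormedSpace ℝ V]
    [NormedAddCommGroup V'] [NormedSpace ℝ V'] [NormedAddCommGroup W] [NormedSpace ℝ W]
    [NormedAddCommGroup W'] [NormedSpace ℝ W'] {L : X × Y →L[ℝ] (U × V) × W}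
    {L' : X' × Y' →L[ℝ] (U' × V') × W'} {n n' : ℤ} (h : Fr L n) (h' : Fr L' n') {i₁ : X' →L[ℝ] X}
    {i₂ : Y' →L[ℝ] Y} {j₁ : U' →L[ℝ] U} {j₂ : V' →L[ℝ] V} {j₃ : W' →L[ℝ] W} (h₁ : Injective i₁)
    (h₂ : Injective i₂) (d₁ : DenseRange j₁) (d₂ : DenseRange j₂) (d₃ : DenseRange j₃)
    (e : ∀ a b, ∃ u v w, L' (a, b) = ((u, v), w) ∧ L (i₁ a, i₂ b) = ((j₁ u, j₂ v), j₃ w)) :
    n' ≤ n :=
  fr_le (i := i₁.prodMap i₂) (j := (j₁.prodMap j₂).prodMap j₃) (h₁.prodMap h₂)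
    ((d₁.prodMap d₂).prodMap d₃) (fun ⟨a, b⟩ => by
      obtain ⟨u, v, w, e1, e2⟩ := e a b
      rw [e1]; exact e2) h h'

variable (A : X →L[ℝ] X') (B : Y →L[ℝ] Y')

theorem pm3 (a : X) (b : Y) (z : Z) : A.prodMap (B.prodMap (.id ℝ Z)) (a, b, z) = (A a, B b, z) :=
  rfl

theorem pm_1 (v : X × Y × Z) : (A.prodMap (B.prodMap (.id ℝ Z)) v).1 = A v.1 := rfl

theorem pm_2 (v : X × Y × Z) : (A.prodMap (B.prodMap (.id ℝ Z)) v).2.1 = B v.2.1 := rfl

end Crest.Agent.X212.Ixm76
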