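import Crest.Agent.X212.Ixm76.Abs
import Crest.Agent.X212.Nk89.Idx
import Crest.Agent.X212.Map77.Rp

/-! # Row 212, IX-MON (helper76): the same family on two comparable Sobolev scales -/

set_option autoImplicit false
set_option linter.unusedSectionVars false
noncomputable section
open scoped Manifold ContDiff Topology InnerProductSpace
open MeasureTheory Set Function Filter

namespace Crest.Agent.X212.Ixm76
open An An.Pre Sob92 Prm93 Fred93 Mod61 Map77 Nk89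

variable {E : Type} [NormedAddCommGroup E] [NormedSpace ℝ E] [FiniteDimensional ℝ E]
  [MeasurableSpace E] [BorelSpace E]
  {HM : Type} [TopologicalSpace HM] {I : ModelWithCorners ℝ E HM} [I.Boundaryless]
  {M : Type} [TopologicalSpace M] [ChartedSpace HM M] [IsManifold I ∞ M]
  [MeasurableSpace M] [T2Space M] [BorelSpace M] [SecondCountableTopology M]
  {ι : Type} [Fintype ι] {lam : Type} [Fintype lam]
  {T : Type} [NormedAddCommGroup T] [NormedSpace ℝ T]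

section inc
variable {V W : Type} [NormedAddCommGroup V] [InnerProductSpace ℝ V] [CompleteSpace V]
  [NormedAddCommGroup W] [InnerProductSpace ℝ W] {F F' : Fr I M ι} {k j : ℕ}
  {p p' : M → V →L[ℝ] V} {q q' : M → W →L[ℝ] W} {S S' : ℝ} {u : M → V}

variable (F F' k p p') in
/-- the inclusion of the stronger scale -/
def iH : F'.H k p' →L[ℝ] F.H k p := F'.liftT k k p' F.toPre p id

variable (h : Dom F'.toPre F.toPre) (e : p' = p)
include h e

theorem iH_dense : DenseRange (iH F F' k p p') := (F.dense_toH k p).mono <| by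
  subst e
  rintro _ ⟨u, rfl⟩
  exact ⟨_, RepT_toH h.rep u⟩

omit [CompleteSpace V] in
theorem iH_rep (e' : q' = q) {A A' : (M → V) → M → W} {L' : F'.H k p' →L[ℝ] F'.H j q'}
    {L : F.H k p →L[ℝ] F.H j q} (hL : F.Rep L A) (hL' : F'.Rep L' A') (eA : A' = A)
    (x : F'.H k p') : L (iH F F' k p p' x) = iH F F' j q q' (L' x) := by
  subst e e' eA
  exact DFunLike.congr_fun (RepT_eq (RepT_comp hL h.rep) (RepT_comp h.rep hL') fun _ => rfl) x

variable (hS : Sup F.toPre S) (hS' : Sup F'.toPre S')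
include hS hS'

theorem val_iH (hk : 4 ≤ k) (x : F'.H k p') : F.val k p (iH F F' k p p' x) = F'.val k p' x := by
  subst e
  funext y
  induction x using H_ind with
  | hP => exact isClosed_eq (by fun_prop) (by fun_prop)
  | h u => rw [iH, RepT_toH h.rep, val_toH hS hk, val_toH hS' hk]; rfl

theorem iH_inj (hk : 4 ≤ k) : Injective (iH F F' k p p') := fun a b e1 =>
  val_injective hS' hk (by rw [← val_iH h e hS hS' hk, e1, val_iH h e hS hS' hk])

theorem hs_iH (hu : u ∈ Hs F'.toPre p') : u ∈ Hs F.toPre p := fun k hk =>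
  let ⟨a, e1⟩ := hu k hk
  ⟨_, (val_iH h e hS hS' hk a).trans e1⟩

theorem iH_ofV (hk : 4 ≤ k) (hu : u ∈ Hs F'.toPre p') :
    iH F F' k p p' (ofV F'.toPre k p' u) = ofV F.toPre k p u :=
  (ofV_eq hS hk ((val_iH h e hS hS' hk _).trans (val_ofV hu hk))).symm

end inc

/-- another Sobolev frame -/
@[reducible] def rw (𝔉 : Mod61.Fam I M ι lam T) (F : Fr I M ι) : Mod61.Fam I M ι lam T :=
  { 𝔉 with F0 := F }

open Classical in
theorem mix_e {F F' : Pre I M ι} (h : F'.e = F.e) :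
    Mix F F' fun a b _ => if a = b then 1 else 0 := fun a x => by simp [h]

theorem cb_e {F F' : Pre I M ι} (h : F'.e = F.e) {N : Type} [NormedAddCommGroup N] [NormedSpace ℝ N]
    {f : M → N} (hf : F.Cb f) : F'.Cb f := (mix_e h).Cb (fun _ _ => Cb_const _) hf

theorem sb_e {F F' : Pre I M ι} (h : F'.e = F.e) {N : Type} [NormedAddCommGroup N] [NormedSpace ℝ N]
    {T : Type} [NormedAddCommGroup T] [NormedSpace ℝ T] {O : Set T} {f : T → M → N}
    (hf : SB F O f) : SB F' O f := (mix_e h).SB (fun _ _ => Cb_const _) hf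

variable {𝔉 : Mod61.Fam I M ι lam T} {F' : Fr I M ι} {r n m k : ℕ}

/-- the same reference -/
@[reducible] def rwR (o : Ref 𝔉) (he : F'.e = 𝔉.F0.e) : Ref (rw 𝔉 F') :=
  ⟨o.m, o.A0, o.Φ0, o.ok, o.conn, cb_e he o.cp, fun a => cb_e he (o.cρ a), cb_e he o.cj,
    fun a => cb_e he (o.cA a), cb_e he o.cΦ, o.pos, o.b, sb_e he o.sb, o.bP⟩

theorem ok_rw (h : 𝔉.OK) (he : F'.e = 𝔉.F0.e) (hP : F'.P = 𝔉.B.P) (ht : ∃ C, F'.Tame C)
    (hd : ∀ t ∈ 𝔉.Q, (𝔉.G t).F.μ = F'.μ) : (rw 𝔉 F').OK :=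
  ⟨h.B, h.G0, h.G, ht, h.tameG, h.e0.trans he.symm, hP, fun a b c d => cb_e he (h.co a b c d),
    cb_e he h.cl, h.opn, h.Om, h.Om', h.sub, fun t ht a x => he ▸ h.mix t ht a x, h.PS, h.SP, h.PSi,
    h.SiP, h.SSi, h.SiS, fun a b => sb_e he (h.sS a b), fun a b => sb_e he (h.sSi a b),
    fun a b c => sb_e he (h.scf a b c), fun a => sb_e he (h.sla a),
    fun a b c => sb_e he (h.sc a b c), fun a => sb_e he (h.sdv a), fun a => sb_e he (h.sa a),
    ⟨fun _ _ => 1, .fixed (Cb_const _), fun t ht => ⟨fun _ => one_pos, by simp [hd t ht]⟩⟩, h.conn⟩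

/-! ### the gauge row of another frame -/

section row
variable {o : Ref 𝔉}

variable (k) in
/-- the linearisation with the gauge row of the frame `G` -/
def lopG (G : Fr I M ι) (f : o.C r k → o.Y n m k) (y : Pnt o r) :
    CF o k →L[ℝ] YF o k × 𝔉.F0.H k o.Pg :=
  (prF o n m k ∘L fderiv ℝ f (y.pt k) ∘L inF o r k).prod
    ((bd o).RR 𝔉.F0.toPre G k (fld y) ∘L SH (k + 1) o (𝔉.S y.t) ∘L
      ((sumH 𝔉.F0.toPre (k + 1) o.P1 o.Pp).symm : CF o k →L[ℝ] 𝔉.F0.H (k + 1) (bd o).pC))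

theorem lopG_apply (G : Fr I M ι) (f : o.C r k → o.Y n m k) (y : Pnt o r)
    (a : 𝔉.F0.H (k + 1) o.P1) (b : 𝔉.F0.H (k + 1) o.Pp) :
    lopG k G f y (a, b) = (((fderiv ℝ f (y.pt k) (a, b, 0)).1,
      (fderiv ℝ f (y.pt k) (a, b, 0)).2.1), (bd o).RR 𝔉.F0.toPre G k (fld y)
        (SH (k + 1) o (𝔉.S y.t) (iH1 _ _ o.P1 o.Pp a + iH2 _ _ o.P1 o.Pp b))) := rfl

theorem mem_U {v : o.C r k} : v ∈ o.U r k ↔ v.2.2.2 ∈ 𝔉.Q := Iff.rfl

theorem pt_eq (y : Pnt o r) : y.pt k =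
    (ofV 𝔉.F0.toPre (k + 1) o.P1 y.α, ofV 𝔉.F0.toPre (k + 1) o.Pp y.φ, y.z, y.t) := rfl

/-- a smooth family of frames for the adjoint -/
structure Ad (𝔉 : Mod61.Fam I M ι lam T) (t : T) (G : ℝ → Fr I M ι) : Prop where
  e : ∀ s, (G s).e = (𝔉.G t).F.e
  dv : ∀ a, SB 𝔉.F0.toPre univ fun s => (G s).dv a

variable (h : 𝔉.OK) {G : ℝ → Fr I M ι} (y : Pnt o r) (a : Ad 𝔉 y.t G)
include h a

theorem Ad.mx (s : ℝ) (_ : s ∈ univ) : Mix 𝔉.F0.toPre (G s).toPre fun a b x => 𝔉.S y.t x a b :=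
  fun b x => a.e s ▸ h.mix y.t y.ht b x

theorem Ad.op : (sb 𝔉.F0.toPre (A := fun a b _ x => 𝔉.S y.t x a b) (a.mx h y)
    fun a b => SB.fixed ((h.sS a b).cb y.t y.ht)).op
      fun s => ((bd o).d0 (G s) (fld y)).adj (G s) :=
  (Bd.In.d0 (F := G) ⟨fun a b => SB.fixed (cb_P h a b), fun a => SB.fixed (o.cρ a),
    SB.fixed (cb_Pg o h), SB.fixed (cb_P1 o h), SB.fixed (cb_P2 o h), SB.fixed (cb_Pp o h),
    SB.fixed (cb_Pm o h)⟩ (SB.fixed (cb_uy h y))).adj a.dv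

theorem Ad.rep (s : ℝ) : 𝔉.F0.Rep ((bd o).RR 𝔉.F0.toPre (G s) k (fld y))
    ((G s).op (((bd o).d0 (G s) (fld y)).adj (G s)).σ (((bd o).d0 (G s) (fld y)).adj (G s)).B) :=
  have al := ((ok_bd o h).alg_d0 (F := G s) (fld y)).adj (G s)
  (a.mx h y s trivial).rep_op (fun a b => (h.sS a b).cb y.t y.ht)
    (fun b => ((a.op h y).σ b).cb s trivial) ((a.op h y).B.cb s trivial) al.qσ (Maps.of_left al.qB)

theorem Ad.cont (f : o.C r k → o.Y n m k) : Continuous fun s => lopG k (G s) f y := by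
  have h1 : Continuous fun s => (bd o).RR 𝔉.F0.toPre (G s) k (fld y) :=
    continuousOn_univ.1 (sm_LH (a.op h y) (cb_Pg o h) (fun _ => rfl)
      (fun _ => ((ok_bd o h).alg_d0 _).adj _) (ok_bd o h).g k).continuousOn
  exact (ContinuousLinearMap.prodₗᵢ ℝ).continuous.comp
    (continuous_const.prodMk (h1.clm_comp continuous_const))

end row

/-! ### comparison -/

section cmp
variable (h : 𝔉.OK) (h' : (rw 𝔉 F').OK) (hd : Dom (rw 𝔉 F').F0.toPre 𝔉.F0.toPre)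
  (he : F'.e = 𝔉.F0.e) (o : Ref 𝔉)

theorem eP1 : (rwR o he).P1 = o.P1 := rfl
theorem eP2 : (rwR o he).P2 = o.P2 := rfl
theorem ePp : (rwR o he).Pp = o.Pp := rfl
theorem ePm : (rwR o he).Pm = o.Pm := rfl
theorem ePg : (rwR o he).Pg = o.Pg := rfl
theorem ebd : bd (rwR o he) = bd o := rfl
theorem ePC : (bd (rwR o he)).pC = (bd o).pC := rfl

/-- inclusion of the configurations -/
def wC (r k : ℕ) : (rwR o he).C r k →L[ℝ] o.C r k :=
  (iH 𝔉.F0 (rw 𝔉 F').F0 (k + 1) o.P1 (rwR o he).P1).prodMap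
    ((iH 𝔉.F0 (rw 𝔉 F').F0 (k + 1) o.Pp (rwR o he).Pp).prodMap (.id ℝ _))

/-- inclusion of the equations -/
def wY (n m k : ℕ) : (rwR o he).Y n m k →L[ℝ] o.Y n m k :=
  (iH 𝔉.F0 (rw 𝔉 F').F0 k o.Pm (rwR o he).Pm).prodMap
    ((iH 𝔉.F0 (rw 𝔉 F').F0 k o.P2 (rwR o he).P2).prodMap (.id ℝ _))

variable {he o}

/-- a point of the stronger scale -/
def up (y : Pnt (rwR o he) r) : Pnt o r :=
  ⟨y.α, y.φ, y.z, y.t, hs_iH hd (eP1 he o) h.sup h'.sup y.hα, hs_iH hd (ePp he o) h.sup h'.sup y.hφ,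
    y.ht⟩

theorem up_fld (y : Pnt (rwR o he) r) : fld y = fld (up h h' hd y) := rfl

variable (hk : 4 ≤ k) {e : T → PtX M ι lam r n m} {f : o.C r k → o.Y n m k}
  {f' : (rwR o he).C r k → (rwR o he).Y n m k}
include hk

theorem wC_pt (y : Pnt (rwR o he) r) : wC he o r k (y.pt k) = (up h h' hd y).pt k := by
  rw [pt_eq, pt_eq]
  exact (pm3 _ _ _ _ _).trans (congrArg₂ Prod.mk
    (iH_ofV hd (eP1 he o) h.sup h'.sup (by omega) y.hα)
    (congrArg₂ Prod.mk (iH_ofV hd (ePp he o) h.sup h'.sup (by omega) y.hφ) rfl))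

theorem repE_up {y : Pnt (rwR o he) r} {w : (rwR o he).Y n m k} (H : RepE e y w) :
    RepE e (up h h' hd y) (wY he o n m k w) :=
  have z : (wY he o n m k w).2.2 = w.2.2 := pm_z _ _ w
  ⟨(congrArg _ (pm_1 _ _ w)).trans ((val_iH hd (ePm he o) h.sup h'.sup hk _).trans H.D),
    (congrArg _ (pm_2 _ _ w)).trans ((val_iH hd (eP2 he o) h.sup h'.sup hk _).trans H.C),
    (congrArg Prod.fst z).trans H.S, (congrArg Prod.snd z).trans H.R⟩

include h h' hd

theorem f_wC (hf : RepF e f) (hf' : RepF e f') :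
    EqOn (f ∘ wC he o r k) (wY he o n m k ∘ f') ((rwR o he).U r k) :=
  have mp : ∀ v ∈ (rwR o he).U r k, wC he o r k v ∈ o.U r k := fun v hv => by
    have z : (wC he o r k v).2.2 = v.2.2 := pm_z _ _ v
    rw [mem_U] at hv ⊢
    rw [z]; exact hv
  eqOn_U h' (by omega) (hf.1.continuousOn.comp (wC he o r k).continuous.continuousOn mp)
    ((wY he o n m k).continuous.comp_continuousOn hf'.1.continuousOn) fun y =>
      (congrArg f (wC_pt h h' hd hk y)).trans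
        (repE_unique h hk (hf.2 _) (repE_up h h' hd hk (hf'.2 y)))

theorem df_wC (hf : RepF e f) (hf' : RepF e f') (y : Pnt (rwR o he) r) (v : (rwR o he).C r k) :
    fderiv ℝ f ((up h h' hd y).pt k) (wC he o r k v) = wY he o n m k (fderiv ℝ f' (y.pt k) v) :=
  fd_comm (wC_pt h h' hd hk y)
    ((hf.1.contDiffAt ((Map77.isOpen_U h).mem_nhds (Pnt.mem_U _))).differentiableAt (by simp))
    ((hf'.1.contDiffAt ((Map77.isOpen_U h').mem_nhds y.mem_U)).differentiableAt (by simp))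
    (eventually_of_mem ((Map77.isOpen_U h').mem_nhds y.mem_U) (f_wC h h' hd hk hf hf')) v

omit hk in
theorem row_up (y : Pnt (rwR o he) r) {G : ℝ → Fr I M ι} (A : Ad 𝔉 y.t G) (s : ℝ)
    (a : (rw 𝔉 F').F0.H (k + 1) (rwR o he).P1) (b : (rw 𝔉 F').F0.H (k + 1) (rwR o he).Pp) :
    (bd o).RR 𝔉.F0.toPre (G s) k (fld (up h h' hd y)) (SH (k + 1) o (𝔉.S (up h h' hd y).t)
      (iH1 _ _ o.P1 o.Pp (iH 𝔉.F0 (rw 𝔉 F').F0 (k + 1) o.P1 (rwR o he).P1 a) +
        iH2 _ _ o.P1 o.Pp (iH 𝔉.F0 (rw 𝔉 F').F0 (k + 1) o.Pp (rwR o he).Pp b))) =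
    iH 𝔉.F0 (rw 𝔉 F').F0 k o.Pg (rwR o he).Pg ((bd (rwR o he)).RR (rw 𝔉 F').F0.toPre (G s) k (fld y)
      (SH (k + 1) (rwR o he) ((rw 𝔉 F').S y.t) (iH1 _ _ (rwR o he).P1 (rwR o he).Pp a +
        iH2 _ _ (rwR o he).P1 (rwR o he).Pp b))) := by
  have A' : Ad (rw 𝔉 F') y.t G := ⟨A.e, fun b => sb_e he (A.dv b)⟩
  have e2 := iH_rep hd (ePC he o) (ePg he o) (A.rep (k := k) h (up h h' hd y) s) (A'.rep h' y s)
    (by rw [ebd, up_fld h h' hd])
  have e3 := iH_rep hd (ePC he o) (ePC he o) (rep_SH (k := k + 1) o h (up h h' hd y).ht)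
    (rep_SH (rwR o he) h' y.ht) rfl
  have e4 := iH_rep hd (eP1 he o) (ePC he o) (rep_iH1 (k := k + 1)) rep_iH1 rfl a
  have e5 := iH_rep hd (ePp he o) (ePC he o) (rep_iH2 (k := k + 1)) rep_iH2 rfl b
  exact (congrArg _ ((congrArg _ ((congrArg₂ (· + ·) e4 e5).trans (map_add _ _ _).symm)).trans
    (e3 _))).trans (e2 _)

/-- **more decay, smaller index** -/
theorem lop_le (hf : RepF e f) (hf' : RepF e f') (y : Pnt (rwR o he) r) {G : ℝ → Fr I M ι}
    (A : Ad 𝔉 y.t G) (s : ℝ) {d d' : ℤ} (H : Fred93.Fr (lopG k (G s) f (up h h' hd y)) d)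
    (H' : Fred93.Fr (lopG k (G s) f' y) d') : d' ≤ d := by
  refine fr_le' H H' (iH_inj (k := k + 1) hd (eP1 he o) h.sup h'.sup (by omega))
    (iH_inj (k := k + 1) hd (ePp he o) h.sup h'.sup (by omega)) (iH_dense hd (ePm he o))
    (iH_dense hd (eP2 he o)) (iH_dense hd (ePg he o))
    fun a b => ⟨_, _, _, lopG_apply _ _ _ a b, (lopG_apply _ _ _ _ _).trans ?_⟩
  have e1 := df_wC h h' hd hk hf hf' y (a, b, 0)
  rw [wC, pm3] at e1
  exact congrArg₂ Prod.mk (congrArg₂ Prod.mk ((congrArg Prod.fst e1).trans (pm_1 _ _ _))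
    ((congrArg (·.2.1) e1).trans (pm_2 _ _ _))) (row_up h h' hd y A s a b)

end cmp

end Crest.Agent.X212.Ixm76
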